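import Vale.Agent.N293.Mod
import Vale.Agent.P295L74.Main
import Mathlib.Algebra.Polynomial.Bivariate
import Mathlib.RingTheory.Polynomial.Quotient

/-!
P295: stable coordinates which involve all variables in all coordinate systems; continuum many
orbits.
-/

open Polynomial

namespace Vale.Agent.N295

section

variable {A R : Type} [CommRing A] [Algebra ℂ A] [CommRing R] [Algebra ℂ R] (φ : A[X] ≃ₐ[ℂ] R)

/-- the variable of a cylinder is exchanged with a new variable -/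
theorem exists_swap : ∃ e : R[X] ≃ₐ[ℂ] R[X], e (C (φ X)) = X := by
  refine ⟨(mapAlgEquiv φ).symm.trans (((Bivariate.swap (R := A)).restrictScalars ℂ).trans
    (mapAlgEquiv φ)), ?_⟩
  have h1 : (mapAlgEquiv φ).symm (C (φ X)) = C X := by
    rw [AlgEquiv.symm_apply_eq, coe_mapAlgEquiv, map_C]
    rfl
  rw [AlgEquiv.trans_apply, h1, AlgEquiv.trans_apply, AlgEquiv.restrictScalars_apply,
    Bivariate.swap_X, coe_mapAlgEquiv, map_X]

theorem quot_equiv {S : Type} [CommRing S] [Algebra ℂ S] (e : R ≃ₐ[ℂ] S) {x : R} {y : S}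
    (h : Associated (e x) y) :
    Nonempty ((R ⧸ Ideal.span {x}) ≃ₐ[ℂ] (S ⧸ Ideal.span {y})) := by
  refine ⟨Ideal.quotientEquivAlg _ _ e ?_⟩
  rw [Ideal.map_span, Set.image_singleton]
  exact le_antisymm (Ideal.span_singleton_le_span_singleton.2 h.dvd)
    (Ideal.span_singleton_le_span_singleton.2 h.symm.dvd)

/-- the fibres of the variable of a cylinder -/
theorem fibre (c : ℂ) : Nonempty ((R ⧸ Ideal.span {φ X - algebraMap ℂ R c}) ≃ₐ[ℂ] A) := by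
  obtain ⟨e⟩ := quot_equiv φ.symm (x := φ X - algebraMap ℂ R c)
    (y := X - C (algebraMap ℂ A c)) (by
      rw [map_sub, φ.symm_apply_apply, AlgEquiv.commutes]
      rfl)
  exact ⟨e.trans ((quotientSpanXSubCAlgEquiv (algebraMap ℂ A c)).restrictScalars ℂ)⟩

/-- if the variable of a cylinder is constant for another structure of cylinder, the base is a
cylinder -/
theorem cyl_of_const {B : Type} [CommRing B] [Algebra ℂ B] (e : R ≃ₐ[ℂ] B[X]) {b : B}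
    (h : e (φ X) = C b) : Nonempty (A ≃ₐ[ℂ] (B ⧸ Ideal.span {b})[X]) := by
  obtain ⟨e1⟩ := fibre φ 0
  obtain ⟨e2⟩ := quot_equiv e (x := φ X - algebraMap ℂ R 0) (y := C b) (by
    rw [map_zero, sub_zero, h])
  have h1 : Ideal.span {(C b : B[X])} = Ideal.map C (Ideal.span {b}) := by
    rw [Ideal.map_span, Set.image_singleton]
  let e3 : (B[X] ⧸ Ideal.map C (Ideal.span {b})) ≃ₐ[ℂ] (B ⧸ Ideal.span {b})[X] :=
    AlgEquiv.ofRingEquiv (f := (Ideal.span {b}).polynomialQuotientEquivQuotientPolynomial.symm)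
      fun c => by
        have h2 := Ideal.polynomialQuotientEquivQuotientPolynomial_symm_mk (Ideal.span {b})
          (C (algebraMap ℂ B c))
        rw [map_C] at h2
        exact h2
  exact ⟨e1.symm.trans (e2.trans ((Ideal.quotientEquivAlgOfEq ℂ h1).trans e3))⟩

end

theorem spec {n : ℕ} {A : Type} [CommRing A] [Algebra ℂ A]
    (φ : A[X] ≃ₐ[ℂ] MvPolynomial (Fin (n + 1)) ℂ)
    (hA : ∀ (B : Type) [CommRing B] [Algebra ℂ B], ¬ Nonempty (A ≃ₐ[ℂ] B[X])) :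
    (∃ e : (MvPolynomial (Fin (n + 1)) ℂ)[X] ≃ₐ[ℂ] MvPolynomial (Fin (n + 1 + 1)) ℂ,
      e (C (φ X)) = MvPolynomial.X 0) ∧
    (∀ (e : MvPolynomial (Fin (n + 1)) ℂ ≃ₐ[ℂ] MvPolynomial (Fin (n + 1)) ℂ) (i : Fin (n + 1)),
      (e (φ X)).degreeOf i ≠ 0) ∧
    ∀ (B : Type) [CommRing B] [Algebra ℂ B] (e : MvPolynomial (Fin (n + 1)) ℂ ≃ₐ[ℂ] B[X]) (b : B),
      e (φ X) ≠ C b := by
  have h3 : ∀ (B : Type) [CommRing B] [Algebra ℂ B]
      (e : MvPolynomial (Fin (n + 1)) ℂ ≃ₐ[ℂ] B[X]) (b : B), e (φ X) ≠ C b :=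
    fun B _ _ e b h => hA _ (cyl_of_const φ e h)
  refine ⟨?_, fun e i hi => ?_, h3⟩
  · obtain ⟨e, he⟩ := exists_swap φ
    refine ⟨e.trans (MvPolynomial.finSuccEquiv ℂ (n + 1)).symm, ?_⟩
    rw [AlgEquiv.trans_apply, he, AlgEquiv.symm_apply_eq, MvPolynomial.finSuccEquiv_X_zero]
  · refine h3 _ (e.trans ((MvPolynomial.renameEquiv ℂ (Equiv.swap i 0)).trans
      (MvPolynomial.finSuccEquiv ℂ n))) _ (eq_C_of_natDegree_eq_zero ?_)
    have h4 := MvPolynomial.degreeOf_rename_of_injective (p := e (φ X))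
      (Equiv.swap i 0).injective i
    rw [Equiv.swap_apply_left] at h4
    rw [AlgEquiv.trans_apply, AlgEquiv.trans_apply, MvPolynomial.natDegree_finSuccEquiv,
      MvPolynomial.renameEquiv_apply, h4, hi]

open Vale.Agent.N293 Vale.Agent.P293.N1 in
theorem main :
    (¬ ∀ n : ℕ, 1 ≤ n → ∀ f : MvPolynomial (Fin n) ℂ,
      (∃ m : ℕ, 1 ≤ m ∧ ∃ g : Fin (n + m - 1) → MvPolynomial (Fin m) (MvPolynomial (Fin n) ℂ),
        Algebra.adjoin ℂ (insert (MvPolynomial.C f) (Set.range g)) = ⊤) →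
      ∃ g : Fin (n - 1) → MvPolynomial (Fin n) ℂ,
        Algebra.adjoin ℂ (insert f (Set.range g)) = ⊤) ∧
    ∀ n : ℕ, 5 ≤ n → ∃ f : ℝ → MvPolynomial (Fin n) ℂ,
      (∀ t, (∃ e : Polynomial (MvPolynomial (Fin n) ℂ) ≃ₐ[ℂ] MvPolynomial (Fin (n + 1)) ℂ,
          e (Polynomial.C (f t)) = MvPolynomial.X 0) ∧
        (∀ (e : MvPolynomial (Fin n) ℂ ≃ₐ[ℂ] MvPolynomial (Fin n) ℂ) (i : Fin n),
          (e (f t)).degreeOf i ≠ 0) ∧
        ∀ (B : Type) [CommRing B] [Algebra ℂ B]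
          (e : MvPolynomial (Fin n) ℂ ≃ₐ[ℂ] Polynomial B) (b : B), e (f t) ≠ Polynomial.C b) ∧
      (6 ≤ n → ∀ s t, s ≠ t →
        (∀ (e : MvPolynomial (Fin n) ℂ ≃ₐ[ℂ] MvPolynomial (Fin n) ℂ) (a b : ℂ),
          e (f s) ≠ MvPolynomial.C a * f t + MvPolynomial.C b) ∧
        ∀ c d : ℂ, IsEmpty ((MvPolynomial (Fin n) ℂ ⧸ Ideal.span {f s - MvPolynomial.C c}) ≃ₐ[ℂ]
          (MvPolynomial (Fin n) ℂ ⧸ Ideal.span {f t - MvPolynomial.C d}))) := by
  refine ⟨fun h => ?_, fun n hn => ?_⟩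
  · obtain ⟨f, h1, h2⟩ := P295L.exists_example (le_refl 5)
    exact h2 (h 5 (by norm_num) f ⟨1, le_rfl, h1 1 le_rfl⟩)
  rcases hn.eq_or_lt with rfl | hn
  · have : Fact (sig 0 ≠ 0) := ⟨sig_ne 0⟩
    obtain ⟨-, ⟨φ⟩, -, h⟩ := AAs_spec (sig 0) fun i => i.elim0
    exact ⟨fun _ => φ X, fun _ => spec φ h, fun h6 => absurd h6 (by norm_num)⟩
  obtain ⟨m, rfl⟩ : ∃ m, n = m + 1 + 4 + 1 := ⟨n - 6, by omega⟩
  obtain ⟨ψ, hψ⟩ := exists_moduli m
  have h1 := fun t => AAs_spec (sg m (ψ t)) (X_dvd_sg m (ψ t))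
  let φ := fun t => (h1 t).2.1.some
  have h2 := fun t => spec (φ t) (h1 t).2.2.2
  have h3 : ∀ s t, s ≠ t → ∀ c d : ℂ, IsEmpty
      ((MvPolynomial (Fin (m + 1 + 4 + 1)) ℂ ⧸ Ideal.span {φ s X - MvPolynomial.C c}) ≃ₐ[ℂ]
        (MvPolynomial (Fin (m + 1 + 4 + 1)) ℂ ⧸ Ideal.span {φ t X - MvPolynomial.C d})) :=
    fun s t hst c d => ⟨fun e => by
      obtain ⟨e1⟩ := fibre (φ s) c
      obtain ⟨e2⟩ := fibre (φ t) d
      exact hst (hψ s t ⟨e1.symm.trans (e.trans e2)⟩)⟩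
  refine ⟨fun t => φ t X, h2, fun _ s t hst => ⟨fun e a b h => ?_, h3 s t hst⟩⟩
  by_cases ha : a = 0
  · refine (h2 s).2.1 e 0 ?_
    rw [h, ha, map_zero, zero_mul, zero_add, MvPolynomial.degreeOf_C]
  · obtain ⟨e1⟩ := quot_equiv e (x := φ s X - MvPolynomial.C b) (y := φ t X - MvPolynomial.C 0) (by
      have h4 : e (MvPolynomial.C b) = MvPolynomial.C b := e.commutes b
      rw [map_sub, h, h4, map_zero, sub_zero, add_sub_cancel_right]
      exact associated_unit_mul_left _ _ ((IsUnit.mk0 a ha).map MvPolynomial.C))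
    exact (h3 s t hst b 0).false e1

end Vale.Agent.N295
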